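import Vale.Agent.P269.G1I.H410.BWdvv
import Vale.Agent.P269.G1I.BSpec

/-!
# [D] descendants: definitions and leaves
-/

namespace Vale.Agent.P269.G1

open Finset.HasAntidiagonal (antidiagonal)
open Vale.Agent.P269.CI
open Vale.Agent.P269.H597 (coh)

variable {X : CompleteIntersection} {n : ℕ}

variable (E : Fam X n) {F : ℕ → ℕ → List (Ins X) → ℂ}

/-- **[DB2]** WDVV -/
theorem CB_comm (hF : IsGW X F) (h1 : IsGenusOne F) (x y : Fin (X.dim + 1) → RB n) :
    actB X n (CB E h1 x) y = actB X n (CB E h1 y) x := by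
  apply H410.CB_comm <;> assumption

/-- **[DB2]** -/
theorem CB_mul (hF : IsGW X F) (h1 : IsGenusOne F) (x y : Fin (X.dim + 1) → RB n) :
    CB E h1 (actB X n (CB E h1 x) y) = CB E h1 x * CB E h1 y := by
  apply H410.CB_mul <;> assumption

/-! ### the vectors `l_k τ` -/

end Vale.Agent.P269.G1
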