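import Vale.Agent.P269.G1I.H440.GString
import Vale.Agent.P269.G1I.BSpec

/-!
# [D] descendants: definitions and leaves
-/

namespace Vale.Agent.P269.G1

open Finset.HasAntidiagonal (antidiagonal)
open Vale.Agent.P269.CI
open Vale.Agent.P269.H597 (coh)

variable {X : CompleteIntersection} {n : ℕ}

variable (E : Fam X n) {F : ℕ → ℕ → List (Ins X) → ℂ}

/-- **[DB3]** string equation, differentiated twice -/
theorem CB_g (hF : IsGW X F) (h1 : IsGenusOne F) : CB E h1 (gB E h1 1) = 1 := by
  apply H440.CB_g <;> assumption

/-- **[DB3]** string equation, differentiated once -/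
theorem g_zero (hF : IsGW X F) (h1 : IsGenusOne F) : gB E h1 0 = 0 := by
  apply H440.g_zero <;> assumption

/-! ### the vectors `l_k τ` -/

end Vale.Agent.P269.G1
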