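import Vale.Agent.P269.G1I.H513.CU
import Vale.Agent.P269.G1I.BSpec

/-!
# [D] descendants: definitions and leaves
-/

namespace Vale.Agent.P269.G1

open Finset.HasAntidiagonal (antidiagonal)
open Vale.Agent.P269.CI
open Vale.Agent.P269.H597 (coh)

variable {X : CompleteIntersection} {n : ℕ}

variable (E : Fam X n) {F : ℕ → ℕ → List (Ins X) → ℂ}

/-- **[DB4b]** algebra from `SB_euler`, `g_zero`, `CB_g`, `CB_comm` -/
theorem CB_U (hF : IsGW X F) (h1 : IsGenusOne F) :
    CB E h1 (actB X n (UB E h1) (gB E h1 1)) = UB E h1 := by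
  apply H513.CB_U <;> assumption

/-! ### the vectors `l_k τ` -/

end Vale.Agent.P269.G1
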