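import Vale.Agent.P269.G1I.H598.DG
import Vale.Agent.P269.G1I.BSpec

/-!
# [D] descendants: definitions and leaves
-/

namespace Vale.Agent.P269.G1

open Finset.HasAntidiagonal (antidiagonal)
open Vale.Agent.P269.CI
open Vale.Agent.P269.H597 (coh)

variable {X : CompleteIntersection} {n : ℕ}

variable (E : Fam X n) {F : ℕ → ℕ → List (Ins X) → ℂ}

/-- **[DG]** -/
theorem bDO_add (i : Fin n) (a b : OB X n) : dB i (a + b) = dB i a + dB i b := by
  apply H598.bDO_add <;> assumption

/-- **[DG]** -/
theorem bDO_mul (i : Fin n) (a b : OB X n) : dB i (a * b) = dB i a * b + a * dB i b := by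
  apply H598.bDO_mul <;> assumption

/-- **[DG]** -/
theorem bDO_smul (i : Fin n) (r : RB n) (a : OB X n) :
    dB i (r • a) = MvPowerSeries.pderiv (PowerSeries ℂ) i r • a + r • dB i a := by
  apply H598.bDO_smul <;> assumption

/-- **[DG]** -/
theorem bD_act (i : Fin n) (a : OB X n) (x : Fin (X.dim + 1) → RB n) (b : Fin (X.dim + 1)) :
    MvPowerSeries.pderiv (PowerSeries ℂ) i (actB X n a x b) = actB X n (dB i a) x b +
      actB X n a (fun c => MvPowerSeries.pderiv (PowerSeries ℂ) i (x c)) b := by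
  apply H598.bD_act <;> assumption

/-- **[DG]** -/
theorem bstr_comm (a b : OB X n) : strB X n (a * b) = strB X n (b * a) := by
  apply H598.bstr_comm <;> assumption

/-- **[DG]** -/
theorem bD_str (i : Fin n) (a : OB X n) :
    MvPowerSeries.pderiv (PowerSeries ℂ) i (strB X n a) = strB X n (dB i a) := by
  apply H598.bD_str <;> assumption

/-- **[DG]** -/
theorem bDO_mu (i : Fin n) : dB i (muB X n) = 0 := by
  apply H598.bDO_mu <;> assumption

/-- **[DG]** -/
theorem bDO_R (i : Fin n) : dB i (RBcl X n) = 0 := by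
  apply H598.bDO_R <;> assumption

/-- **[DG]** -/
theorem bw_zero (h1 : IsGenusOne F) (b : Fin (X.dim + 1)) :
    wB E h1 (E.i0 b) 0 = Pi.single b 1 := by
  apply H598.bw_zero <;> assumption

/-- **[DG]** -/
theorem bw_succ (h1 : IsGenusOne F) (b : Fin (X.dim + 1)) (l : ℕ) :
    wB E h1 (E.i0 b) (l + 1) = 0 := by
  apply H598.bw_succ <;> assumption

/-! ### the vectors `l_k τ` -/

end Vale.Agent.P269.G1
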