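import Vale.Agent.P269.G1I.H310.C4
import Vale.Agent.P269.G1I.Model

/-!
# Stage 2: vector fields, connection, grading, Euler field
-/

namespace Vale.Agent.P269.G1

open Finset.HasAntidiagonal (antidiagonal)
open Vale.Agent.P269.CI

variable {X : CompleteIntersection} {F : ℕ → ℕ → List (Ins X) → ℂ}

variable (hF : IsGW X F) (h1 : IsGenusOne F)

/-- **[c4]** from the grading equation -/
theorem c4_E (x y : AA hF h1) : nab hF h1 x (Eu hF h1 * y) - nab hF h1 x (Eu hF h1) * y -
    Eu hF h1 * nab hF h1 x y = x * dd hF h1 y + y * dd hF h1 x - dd hF h1 (x * y) := by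
  apply H310.c4_E <;> assumption

end Vale.Agent.P269.G1
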