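import Vale.Agent.P269.G1I.H410.Lamc
import Vale.Agent.P269.G1I.Model

/-!
# Stage 2: vector fields, connection, grading, Euler field
-/

namespace Vale.Agent.P269.G1

open Finset.HasAntidiagonal (antidiagonal)
open Vale.Agent.P269.CI

variable {X : CompleteIntersection} {F : ℕ → ℕ → List (Ins X) → ℂ}

variable (hF : IsGW X F) (h1 : IsGenusOne F)

/-- **[c8]** -/
theorem lamc_zero (hF : IsGW X F) (h1 : IsGenusOne F) (v : X.Prim) : lamc h1 0 = 1 := by
  apply H410.lamc_zero <;> assumption

/-- **[c8]** -/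
theorem pderiv_lamc (hF : IsGW X F) (h1 : IsGenusOne F) (v : X.Prim) (i j : Fin (X.dim + 1)) :
    MvPowerSeries.pderiv (PowerSeries ℂ) i (lamc h1 j) =
      MvPowerSeries.pderiv (PowerSeries ℂ) j (lamc h1 i) := by
  apply H410.pderiv_lamc <;> assumption

/-- **[c8]** from the grading equation -/
theorem der_lamc_E (v : X.Prim) (x : AA hF h1) :
    der hF h1 x (∑ i, Eu hF h1 i * lamc h1 i) = ∑ i, x i * lamc h1 i := by
  apply H410.der_lamc_E <;> assumption

end Vale.Agent.P269.G1
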