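import Vale.Agent.P269.G1I.H410.LamcMul
import Vale.Agent.P269.G1I.Model

/-!
# Stage 2: vector fields, connection, grading, Euler field
-/

namespace Vale.Agent.P269.G1

open Finset.HasAntidiagonal (antidiagonal)
open Vale.Agent.P269.CI

variable {X : CompleteIntersection} {F : ℕ → ℕ → List (Ins X) → ℂ}

variable (hF : IsGW X F) (h1 : IsGenusOne F)

/-- **[c8]** WDVV with two primitive classes -/
theorem lamc_mul (hF : IsGW X F) (h1 : IsGenusOne F) (v : X.Prim) (i j : Fin (X.dim + 1)) :
    lamc h1 i * lamc h1 j = ∑ k, qc F i j k * lamc h1 k := by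
  apply H410.lamc_mul <;> assumption

/-- **[c8]** from WDVV with four primitive classes -/
theorem lamc_isotropic (hF : IsGW X F) (h1 : IsGenusOne F) (v : X.Prim) (hv : 2 * X.hodgeP v ≠ X.dim) :
    ∑ i, ∑ j, pairingInv X (Sum.inl i) (Sum.inl j) • (lamc h1 i * lamc h1 j) = 0 := by
  apply H410.lamc_isotropic <;> assumption

end Vale.Agent.P269.G1
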