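import Vale.Agent.P269.G1I.H510.Rules
import Vale.Agent.P269.G1I.Model

/-!
# Stage 2: vector fields, connection, grading, Euler field
-/

namespace Vale.Agent.P269.G1

open Finset.HasAntidiagonal (antidiagonal)
open Vale.Agent.P269.CI

variable {X : CompleteIntersection} {F : ℕ → ℕ → List (Ins X) → ℂ}

variable (hF : IsGW X F) (h1 : IsGenusOne F)

/-- **[c2]** elementary rules -/
theorem der_add_left (x y : AA hF h1) (f : RR X) :
    der hF h1 (x + y) f = der hF h1 x f + der hF h1 y f := by
  apply H510.der_add_left <;> assumption

theorem der_smul_left (g : RR X) (x : AA hF h1) (f : RR X) :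
    der hF h1 (g • x) f = g * der hF h1 x f := by
  apply H510.der_smul_left <;> assumption

theorem der_add (x : AA hF h1) (f g : RR X) :
    der hF h1 x (f + g) = der hF h1 x f + der hF h1 x g := by
  apply H510.der_add <;> assumption

theorem der_mul (x : AA hF h1) (f g : RR X) :
    der hF h1 x (f * g) = der hF h1 x f * g + f * der hF h1 x g := by
  apply H510.der_mul <;> assumption

theorem der_rat (x : AA hF h1) (c : ℚ) (f : RR X) :
    der hF h1 x (c • f) = c • der hF h1 x f := by
  apply H510.der_rat <;> assumption

theorem nab_add_left (x y z : AA hF h1) :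
    nab hF h1 (x + y) z = nab hF h1 x z + nab hF h1 y z := by
  apply H510.nab_add_left <;> assumption

theorem nab_smul_left (g : RR X) (x z : AA hF h1) :
    nab hF h1 (g • x) z = g • nab hF h1 x z := by
  apply H510.nab_smul_left <;> assumption

theorem nab_add (x y z : AA hF h1) : nab hF h1 x (y + z) = nab hF h1 x y + nab hF h1 x z := by
  apply H510.nab_add <;> assumption

theorem nab_smul (x : AA hF h1) (g : RR X) (z : AA hF h1) :
    nab hF h1 x (g • z) = der hF h1 x g • z + g • nab hF h1 x z := by
  apply H510.nab_smul <;> assumption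

theorem nab_one (x : AA hF h1) : nab hF h1 x 1 = 0 := by
  apply H510.nab_one <;> assumption

theorem der_comm (x y : AA hF h1) (f : RR X) :
    der hF h1 x (der hF h1 y f) - der hF h1 y (der hF h1 x f) =
      der hF h1 (nab hF h1 x y - nab hF h1 y x) f := by
  apply H510.der_comm <;> assumption

theorem d_one : dd hF h1 1 = 0 := by
  apply H510.d_one <;> assumption

theorem nab_d (x y : AA hF h1) : nab hF h1 x (dd hF h1 y) = dd hF h1 (nab hF h1 x y) := by
  apply H510.nab_d <;> assumption

theorem nab_E (x : AA hF h1) : nab hF h1 x (Eu hF h1) = x - dd hF h1 x := by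
  apply H510.nab_E <;> assumption

end Vale.Agent.P269.G1
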