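import Vale.Agent.P269.G1I.H310.C6
import Vale.Agent.P269.G1I.Oper

/-!
# Stage 3: operators on the whole cohomology
-/

namespace Vale.Agent.P269.G1

open Finset.HasAntidiagonal (antidiagonal)
open Vale.Agent.P269.CI

variable {X : CompleteIntersection} {F : ℕ → ℕ → List (Ins X) → ℂ}

variable (hF : IsGW X F) (h1 : IsGenusOne F)

/-- **[c6]** -/
theorem G_symm (x y : AA hF h1) : der hF h1 x (GG hF h1 y) - GG hF h1 (nab hF h1 x y) =
    der hF h1 y (GG hF h1 x) - GG hF h1 (nab hF h1 y x) := by
  apply H310.G_symm <;> assumption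

/-- **[c6]** string equation -/
theorem G_one : GG hF h1 1 = 0 := by
  apply H310.G_one <;> assumption

/-- **[c6]** grading and divisor equation -/
theorem G_E : GG hF h1 (Eu hF h1) =
    cst X (-(index X : ℂ) / 24 * (deg X * chernCoeff X (X.dim - 1))) := by
  apply H310.G_E <;> assumption

end Vale.Agent.P269.G1
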