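import Vale.Agent.P269.G1I.H510.Symm
import Vale.Agent.P269.G1I.Model

/-!
# Stage 2: vector fields, connection, grading, Euler field
-/

namespace Vale.Agent.P269.G1

open Finset.HasAntidiagonal (antidiagonal)
open Vale.Agent.P269.CI

variable {X : CompleteIntersection} {F : ℕ → ℕ → List (Ins X) → ℂ}

variable (hF : IsGW X F) (h1 : IsGenusOne F)

/-- **[c3]** -/
theorem c4_symm (x y z : AA hF h1) : nab hF h1 x (y * z) - nab hF h1 x y * z -
    y * nab hF h1 x z = nab hF h1 y (x * z) - nab hF h1 y x * z - x * nab hF h1 y z := by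
  apply H510.c4_symm <;> assumption

/-- **[c3]** -/
theorem c5_symm (w x y z : AA hF h1) :
    nab hF h1 w (nab hF h1 x (y * z) - nab hF h1 x y * z - y * nab hF h1 x z)
      - (nab hF h1 (nab hF h1 w x) (y * z) - nab hF h1 (nab hF h1 w x) y * z
        - y * nab hF h1 (nab hF h1 w x) z)
      - (nab hF h1 x (nab hF h1 w y * z) - nab hF h1 x (nab hF h1 w y) * z
        - nab hF h1 w y * nab hF h1 x z)
      - (nab hF h1 x (y * nab hF h1 w z) - nab hF h1 x y * nab hF h1 w z
        - y * nab hF h1 x (nab hF h1 w z)) =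
    nab hF h1 x (nab hF h1 w (y * z) - nab hF h1 w y * z - y * nab hF h1 w z)
      - (nab hF h1 (nab hF h1 x w) (y * z) - nab hF h1 (nab hF h1 x w) y * z
        - y * nab hF h1 (nab hF h1 x w) z)
      - (nab hF h1 w (nab hF h1 x y * z) - nab hF h1 w (nab hF h1 x y) * z
        - nab hF h1 x y * nab hF h1 w z)
      - (nab hF h1 w (y * nab hF h1 x z) - nab hF h1 w y * nab hF h1 x z
        - y * nab hF h1 w (nab hF h1 x z)) := by
  apply H510.c5_symm <;> assumption

end Vale.Agent.P269.G1
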