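import Vale.Agent.P269.G1I.H819.C5a
import Vale.Agent.P269.G1I.Oper

/-!
# Stage 3: operators on the whole cohomology
-/

namespace Vale.Agent.P269.G1

open Finset.HasAntidiagonal (antidiagonal)
open Vale.Agent.P269.CI

variable {X : CompleteIntersection} {F : ℕ → ℕ → List (Ins X) → ℂ}

variable (hF : IsGW X F) (h1 : IsGenusOne F)

/-- **[c5]** -/
theorem nabO_add (x : AA hF h1) (a b : OO hF h1) :
    nabO hF h1 x (a + b) = nabO hF h1 x a + nabO hF h1 x b := by
  apply H819.nabO_add <;> assumption

/-- **[c5]** -/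
theorem nabO_mul (x : AA hF h1) (a b : OO hF h1) :
    nabO hF h1 x (a * b) = nabO hF h1 x a * b + a * nabO hF h1 x b := by
  apply H819.nabO_mul <;> assumption

/-- **[c5]** -/
theorem nabO_smul (x : AA hF h1) (g : RR X) (a : OO hF h1) :
    nabO hF h1 x (g • a) = der hF h1 x g • a + g • nabO hF h1 x a := by
  apply H819.nabO_smul <;> assumption

/-- **[c5]** -/
theorem nabO_mu (x : AA hF h1) : nabO hF h1 x (muO hF h1) = 0 := by
  apply H819.nabO_mu <;> assumption

/-- **[c5]** -/
theorem str_comm (a b : OO hF h1) : strO hF h1 (a * b) = strO hF h1 (b * a) := by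
  apply H819.str_comm <;> assumption

/-- **[c5]** -/
theorem der_str (x : AA hF h1) (a : OO hF h1) :
    der hF h1 x (strO hF h1 a) = strO hF h1 (nabO hF h1 x a) := by
  apply H819.der_str <;> assumption

end Vale.Agent.P269.G1
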