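import Vale.Agent.P269.G1I.H819.C5b
import Vale.Agent.P269.G1I.Oper

/-!
# Stage 3: operators on the whole cohomology
-/

namespace Vale.Agent.P269.G1

open Finset.HasAntidiagonal (antidiagonal)
open Vale.Agent.P269.CI

variable {X : CompleteIntersection} {F : ℕ → ℕ → List (Ins X) → ℂ}

variable (hF : IsGW X F) (h1 : IsGenusOne F)

/-- **[c5]** -/
theorem nabO_U (x : AA hF h1) : nabO hF h1 x (CC hF h1 (Eu hF h1)) =
    CC hF h1 x + CC hF h1 x * muO hF h1 - muO hF h1 * CC hF h1 x := by
  apply H819.nabO_U <;> assumption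

/-- **[c5]** -/
theorem c4O_symm (x y : AA hF h1) :
    nabO hF h1 x (CC hF h1 y) - CC hF h1 (nab hF h1 x y) =
      nabO hF h1 y (CC hF h1 x) - CC hF h1 (nab hF h1 y x) := by
  apply H819.c4O_symm <;> assumption

end Vale.Agent.P269.G1
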