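import Vale.Agent.P269.G1I.H246.One
import Vale.Agent.P269.G1I.Conc

/-!
# Stage 4: the small phase space of a complete intersection, and what is left to prove
-/

namespace Vale.Agent.P269.G1

open Finset.HasAntidiagonal (antidiagonal)
open Vale.Agent.P269.CI
open Polynomial (aeval)

variable {X : CompleteIntersection} {F : ℕ → ℕ → List (Ins X) → ℂ}

variable (hF : IsGW X F) (h1 : IsGenusOne F)

/-- **[c9]** `om_1` is constant and `de_1 = 0` (`G_E` and the formula of Libgober and Wood) -/
theorem frob_om_one (x : AA hF h1) : (frob hF h1).der x ((frob hF h1).om 1) = 0 := by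
  apply H246.frob_om_one <;> assumption

/-- **[c9]** -/
theorem frob_de_one (hX : 3 ≤ X.dim) : (frob hF h1).de 1 = 0 := by
  apply H246.frob_de_one <;> assumption

end Vale.Agent.P269.G1
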