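import Vale.Agent.P269.G1I.H246.Wt
import Vale.Agent.P269.G1I.Conc

/-!
# Stage 4: the small phase space of a complete intersection, and what is left to prove
-/

namespace Vale.Agent.P269.G1

open Finset.HasAntidiagonal (antidiagonal)
open Vale.Agent.P269.CI
open Polynomial (aeval)

variable {X : CompleteIntersection} {F : ℕ → ℕ → List (Ins X) → ℂ}

variable (hF : IsGW X F) (h1 : IsGenusOne F)

/-- **[Z0]** -/
theorem symS_vir (hF : IsGW X F) (k : ℕ) :
    SymS (X := X) (fun d L => virasoro X F (k + 1) 1 d L) := by
  apply H246.symS_vir <;> assumption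

/-- **[W]** dimension count -/
theorem vir_weight (hF : IsGW X F) (k d : ℕ) (h : index X * d ≠ k) :
    virasoro X F (k + 1) 1 d [] = 0 := by
  apply H246.vir_weight <;> assumption

/-- **[Q0]** -/
theorem index_eq (X : CompleteIntersection) : index X = (X.dim : ℤ) + 1 - excess X := by
  apply H246.index_eq <;> assumption

end Vale.Agent.P269.G1
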