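import Vale.Agent.P269.G1I.H276.Pow
import Vale.Agent.P269.G1I.Conc

/-!
# Stage 4: the small phase space of a complete intersection, and what is left to prove
-/

namespace Vale.Agent.P269.G1

open Finset.HasAntidiagonal (antidiagonal)
open Vale.Agent.P269.CI
open Polynomial (aeval)

variable {X : CompleteIntersection} {F : ℕ → ℕ → List (Ins X) → ℂ}

variable (hF : IsGW X F) (h1 : IsGenusOne F)

/-- **[Q1]** -/
theorem pow_basis (hi : index X ≠ 0) : ∃ b : Module.Basis (Fin (X.dim + 1)) (RR X) (AA hF h1),
    ∀ i, b i = Eu hF h1 ^ (i : ℕ) := by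
  apply H276.pow_basis <;> assumption

/-- **[Q2]** -/
theorem exists_poly (hi : 2 ≤ index X) : ∃ P : Polynomial (RR X), P.Monic ∧
    P.natDegree = X.dim + 1 ∧ aeval (Eu hF h1) P = 0 ∧
    ∀ i < X.dim + 1, MvPowerSeries.constantCoeff (P.coeff i) =
      if i = excess X then - (PowerSeries.C (cq X) * PowerSeries.X) else 0 := by
  apply H276.exists_poly <;> assumption

end Vale.Agent.P269.G1
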