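import Vale.Agent.P269.G1I.H302.DF
import Vale.Agent.P269.G1I.BSpec
import Vale.Agent.P269.G1I.BBig

/-!
# [D] descendants: definitions and leaves
-/

namespace Vale.Agent.P269.G1

open Finset.HasAntidiagonal (antidiagonal)
open Vale.Agent.P269.CI
open Vale.Agent.P269.H597 (coh)

variable {X : CompleteIntersection} {n : ℕ}

variable (E : Fam X n) {F : ℕ → ℕ → List (Ins X) → ℂ}

/-! ### the vectors `l_k τ` -/

/-- **[DF]** from `vir_big`, `Big.reduce`, `pderiv_VB`, `descend` -/
theorem vir_descend (hF : IsGW X F) (h1 : IsGenusOne F) (k : ℕ)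
    (h : ∀ d (L : List (Fin (X.dim + 1))), virasoro X F (k + 1) 1 d (L.map (hpow X)) = 0)
    (d : ℕ) (L : List (Ins X)) (hL : ∀ x ∈ L, IsAmb X x) : virasoro X F (k + 1) 1 d L = 0 := by
  apply H302.vir_descend <;> assumption

end Vale.Agent.P269.G1
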