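import Vale.Agent.P269.G1I.H333.Eta
import Vale.Agent.P269.G1I.Conc

/-!
# Stage 4: the small phase space of a complete intersection, and what is left to prove
-/

namespace Vale.Agent.P269.G1

open Finset.HasAntidiagonal (antidiagonal)
open Vale.Agent.P269.CI
open Polynomial (aeval)

variable {X : CompleteIntersection} {F : ℕ → ℕ → List (Ins X) → ℂ}

variable (hF : IsGW X F) (h1 : IsGenusOne F)

/-- **[Q3]** -/
theorem eta_symm (x y : AA hF h1) : eta hF h1 x y = eta hF h1 y x := by
  apply H333.eta_symm <;> assumption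

/-- **[Q3]** -/
theorem eta_inv (x y z : AA hF h1) : eta hF h1 (x * y) z = eta hF h1 x (y * z) := by
  apply H333.eta_inv <;> assumption

/-- **[Q3]** -/
theorem eta_nondeg (x : AA hF h1) (h : ∀ y, eta hF h1 x y = 0) : x = 0 := by
  apply H333.eta_nondeg <;> assumption

/-- **[Q3]** -/
theorem eta_mu (x y : AA hF h1) :
    eta hF h1 ((muO hF h1).1 x) y = - eta hF h1 x ((muO hF h1).1 y) := by
  apply H333.eta_mu <;> assumption

/-- **[Q3]** the vector representing the character of the primitive part -/
theorem eta_lam (v : X.Prim) : ∃ s : AA hF h1, (∀ x, eta hF h1 s x = (lam hF h1 x) v) ∧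
    (2 * X.hodgeP v ≠ X.dim → (lam hF h1 s) v = 0) := by
  apply H333.eta_lam <;> assumption

end Vale.Agent.P269.G1
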