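import Vale.Agent.P269.G1I.H36.WEuler
import Vale.Agent.P269.G1I.ZSpec

/-!
# [Z] the genus-one Virasoro constraints on the small phase space: definitions and leaves
-/

namespace Vale.Agent.P269.G1

open Finset.HasAntidiagonal (antidiagonal)
open Vale.Agent.P269.CI

variable {X : CompleteIntersection} {F : ℕ → ℕ → List (Ins X) → ℂ}

variable (hF : IsGW X F) (h1 : IsGenusOne F)

/-- **[ZB1]** Euler equation for two-point functions: grading and divisor equation -/
theorem W_euler (a b : Ix X) (m n : ℕ) :
    ∑ i, Eu hF h1 i * ser (cor F 0 [hpow X i, (a, m), (b, n)]) =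
      (((m + n + 1 : ℕ) : ℂ) + mu X a + mu X b) • W F (a, m) (b, n) +
      (if m = 0 then 0 else ∑ c, c1 X a c • W F (c, m - 1) (b, n)) +
      (if n = 0 then 0 else ∑ c, c1 X b c • W F (a, m) (c, n - 1)) +
      (if m = 0 ∧ n = 0 then cst X (∑ c, c1 X a c * pairing X c b) else 0) := by
  apply H36.W_euler <;> assumption

end Vale.Agent.P269.G1
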