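import Vale.Agent.P269.G1I.H406.ZA1
import Vale.Agent.P269.G1I.ZAbs

/-!
# [ZA] the abstract recursion for the conjugated Virasoro operators
-/

namespace Vale.Agent.P269.G1

open Finset.HasAntidiagonal (antidiagonal)

section

variable (R : Type*) {O : Type*} [CommRing R] [Algebra ℚ R] [Ring O] [Algebra R O]

/-- **[ZA1]** -/
theorem conj (U mu Rc : O) (S : ℤ → O) (T : ℕ → O) (ee : ℤ → ℕ → ℕ → O)
    (hS2 : ∀ n : ℤ, U * S (n - 1) = kk R n * S n + S n * mu - mu * S n + S (n - 1) * Rc)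
    (hR : mu * Rc = Rc * mu + Rc)
    (hneg : ∀ n < 0, S n = 0)
    (hU : ∀ p : ℕ, ∑ e ∈ antidiagonal p, (-1) ^ e.2 * (S e.1 * T e.2) = if p = 0 then 1 else 0)
    (e00 : ∀ m, ee m 0 0 = 1) (e0s : ∀ m i, ee m 0 (i + 1) = 0)
    (es0 : ∀ m K, ee m (K + 1) 0 = (mu + kk R ((m : ℚ) + 1 / 2 + K)) * ee m K 0)
    (ess : ∀ m K i, ee m (K + 1) (i + 1) =
      ee m K i + (mu + kk R ((m : ℚ) + 1 / 2 + K)) * ee m K (i + 1))
    (c p : ℤ) (K N : ℕ) (hN : c - p + K < N) :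
    ∑ n ∈ Finset.range N, (-1) ^ n * (aK S Rc ee (c - n) K p * T n) = DD R U mu c K p := by
  apply H406.conj <;> assumption

end

end Vale.Agent.P269.G1
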