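import Vale.Agent.P269.G1I.H410.BTrr
import Vale.Agent.P269.G1I.BSpec

/-!
# [D] descendants: definitions and leaves
-/

namespace Vale.Agent.P269.G1

open Finset.HasAntidiagonal (antidiagonal)
open Vale.Agent.P269.CI
open Vale.Agent.P269.H597 (coh)

variable {X : CompleteIntersection} {n : ℕ}

variable (E : Fam X n) {F : ℕ → ℕ → List (Ins X) → ℂ}

/-- **[DB1]** topological recursion for two-point functions -/
theorem dB_SB (hF : IsGW X F) (h1 : IsGenusOne F) (i : Fin n) (k : ℕ) :
    dB i (SB E h1 (k + 1)) = CB E h1 (wB E h1 i 0) * SB E h1 k := by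
  apply H410.dB_SB <;> assumption

/-- **[DB1']** two-point functions depend only on the point of the small phase space -/
theorem pderiv_VB (hF : IsGW X F) (h1 : IsGenusOne F) (i : Fin n) (a b : Ins X) :
    MvPowerSeries.pderiv (PowerSeries ℂ) i (VB E F a b) =
      ∑ c, wB E h1 i 0 c * MvPowerSeries.pderiv (PowerSeries ℂ) (E.i0 c) (VB E F a b) := by
  apply H410.pderiv_VB <;> assumption

/-! ### the vectors `l_k τ` -/

end Vale.Agent.P269.G1
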