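import Vale.Agent.P269.G1I.H410.Unit
import Vale.Agent.P269.G1I.ZSpec

/-!
# [Z] the genus-one Virasoro constraints on the small phase space: definitions and leaves
-/

namespace Vale.Agent.P269.G1

open Finset.HasAntidiagonal (antidiagonal)
open Vale.Agent.P269.CI

variable {X : CompleteIntersection} {F : ℕ → ℕ → List (Ins X) → ℂ}

variable (hF : IsGW X F) (h1 : IsGenusOne F)

/-- **[ZB3]** unitarity: string equation and topological recursion, then a power series with
constant term one has a two-sided inverse -/
theorem SS_ST (p : ℕ) : ∑ e ∈ antidiagonal p, (-1) ^ e.2 * (SZ hF h1 e.1 * ST hF h1 e.2) =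
    if p = 0 then 1 else 0 := by
  apply H410.SS_ST <;> assumption

end Vale.Agent.P269.G1
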