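import Vale.Agent.P269.G1I.H410.WTrr
import Vale.Agent.P269.G1I.ZSpec

/-!
# [Z] the genus-one Virasoro constraints on the small phase space: definitions and leaves
-/

namespace Vale.Agent.P269.G1

open Finset.HasAntidiagonal (antidiagonal)
open Vale.Agent.P269.CI

variable {X : CompleteIntersection} {F : ℕ → ℕ → List (Ins X) → ℂ}

variable (hF : IsGW X F) (h1 : IsGenusOne F)

/-- **[ZB2]** topological recursion: `∂_x W = (x * S_m a, S_n b)` for ambient `a`, `b` -/
theorem W_trr (x a b : Fin (X.dim + 1)) (m n : ℕ) :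
    ser (cor F 0 [hpow X x, (Sum.inl a, m), (Sum.inl b, n)]) =
      ∑ i, ∑ j, ((SS hF h1 m).1 (QA.bas _ a) : AA hF h1) i *
        ((SS hF h1 n).1 (QA.bas _ b) : AA hF h1) j *
          ser (cor F 0 [hpow X x, hpow X i, hpow X j]) := by
  apply H410.W_trr <;> assumption

/-- **[ZB2']** the same for primitive classes -/
theorem W_trr_prim (x : Fin (X.dim + 1)) (v w : X.Prim) (m n : ℕ) :
    ser (cor F 0 [hpow X x, (Sum.inr v, m), (Sum.inr w, n)]) =
      X.form v w • ((SS hF h1 m).2 v * (SS hF h1 n).2 v * lamc h1 x) := by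
  apply H410.W_trr_prim <;> assumption

end Vale.Agent.P269.G1
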