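import Vale.Agent.P269.G1I.H440.Descend
import Vale.Agent.P269.G1I.BAbs

/-!
# [D] descendants: the abstract reduction to level zero
-/

namespace Vale.Agent.P269.G1

open Finset.HasAntidiagonal (antidiagonal)

namespace Big

variable {ι β R O : Type*} [Fintype β] [DecidableEq β] [CommRing R] [Algebra ℚ R]
    [Ring O] [Algebra R O] (S : Big ι β R O)

end Big

/-- **[DE]** a function of the big phase space which is a function of the point of the small
phase space vanishes if it vanishes on the small phase space. -/
theorem descend {n : ℕ} {K : Type*} [CommRing K] [Algebra ℚ K] {β : Type*} [Fintype β]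
    (lev : Fin n → ℕ) (i0 : β → Fin n) (hi : ∀ b, lev (i0 b) = 0)
    (w : Fin n → β → MvPowerSeries (Fin n) K) (f : MvPowerSeries (Fin n) K)
    (h : ∀ i, MvPowerSeries.pderiv K i f = ∑ b, w i b * MvPowerSeries.pderiv K (i0 b) f)
    (h0 : ∀ α : Fin n →₀ ℕ, (∀ i, 0 < lev i → α i = 0) → MvPowerSeries.coeff α f = 0) :
    f = 0 := by
  exact H440.descend lev i0 hi w f h h0

end Vale.Agent.P269.G1
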