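import Vale.Agent.P269.G1I.H440.QcoSymm
import Vale.Agent.P269.G1I.ZSpec

/-!
# [Z] the genus-one Virasoro constraints on the small phase space: definitions and leaves
-/

namespace Vale.Agent.P269.G1

open Finset.HasAntidiagonal (antidiagonal)
open Vale.Agent.P269.CI

variable {X : CompleteIntersection} {F : ℕ → ℕ → List (Ins X) → ℂ}

variable (hF : IsGW X F) (h1 : IsGenusOne F)

/-- **[ZD1]** the symmetry of the coefficients under the exchange of the two insertions -/
theorem qco_symm (K m i : ℕ) (h : m + i + 2 ≤ K) (b c : Fin (X.dim + 1)) :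
    ∑ a : Fin (X.dim + 1), qco X K m i (Sum.inl a) (Sum.inl b) (Sum.inl c) =
      ∑ a : Fin (X.dim + 1), qco X K (K - 2 - m - i) i (Sum.inl a) (Sum.inl c) (Sum.inl b) := by
  apply H440.qco_symm <;> assumption

end Vale.Agent.P269.G1
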