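import Vale.Agent.P269.G1I.H440.TrrOne
import Vale.Agent.P269.G1I.ZSpec

/-!
# [Z] the genus-one Virasoro constraints on the small phase space: definitions and leaves
-/

namespace Vale.Agent.P269.G1

open Finset.HasAntidiagonal (antidiagonal)
open Vale.Agent.P269.CI

variable {X : CompleteIntersection} {F : ℕ → ℕ → List (Ins X) → ℂ}

variable (hF : IsGW X F) (h1 : IsGenusOne F)

/-- **[ZC]** topological recursion in genus one -/
theorem cor_one (b : Fin (X.dim + 1)) (n : ℕ) :
    ser (cor F 1 [(Sum.inl b, n)]) = Gam hF h1 n (QA.bas _ b) := by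
  apply H440.cor_one <;> assumption

/-- the string equation: one-point functions in genus zero -/
theorem cor_string (hF : IsGW X F) (b : Fin (X.dim + 1)) (m : ℕ) :
    ser (cor F 0 [(Sum.inl b, m)]) = W F (Sum.inl b, m + 1) (Sum.inl 0, 0) := by
  apply H440.cor_string <;> assumption

/-- **[ZE3]** string equation -/
theorem ST_one_one (k : Fin (X.dim + 1)) :
    ((ST hF h1 1).1 1 : AA hF h1) k = MvPowerSeries.X k := by
  apply H440.ST_one_one <;> assumption

end Vale.Agent.P269.G1
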