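import Vale.Agent.P269.G1I.H521.SrB
import Vale.Agent.P269.G1I.BSpec

/-!
# [D] descendants: definitions and leaves
-/

namespace Vale.Agent.P269.G1

open Finset.HasAntidiagonal (antidiagonal)
open Vale.Agent.P269.CI
open Vale.Agent.P269.H597 (coh)

variable {X : CompleteIntersection} {n : ℕ}

variable (E : Fam X n) {F : ℕ → ℕ → List (Ins X) → ℂ}

/-- **[DB0]** -/
theorem symF_cor (hF : IsGW X F) (g : ℕ) (P : List (Ins X)) : SymF E (cor F g P) := by
  apply H521.symF_cor <;> assumption

/-- **[DB0]** -/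
theorem pderiv_sr (A : ℕ → List (Ins X) → ℂ) (hA : SymF E A) (i : Fin n) :
    MvPowerSeries.pderiv (PowerSeries ℂ) i (sr E A) = sr E (fun d L => A d (E.ins i :: L)) := by
  apply H521.pderiv_sr <;> assumption

/-- **[DB0]** -/
theorem pderiv_sr_cor (hF : IsGW X F) (g : ℕ) (P : List (Ins X)) (i : Fin n) :
    MvPowerSeries.pderiv (PowerSeries ℂ) i (sr E (cor F g P)) =
      sr E (cor F g (E.ins i :: P)) := by
  apply H521.pderiv_sr_cor <;> assumption

/-- **[DB0]** -/
theorem sr_mulS (A B : ℕ → List (Ins X) → ℂ) (hA : SymF E A) (hB : SymF E B) :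
    sr E (mulS A B) = sr E A * sr E B := by
  apply H521.sr_mulS <;> assumption

/-- **[DB0]** -/
theorem sr_inj (A B : ℕ → List (Ins X) → ℂ) (hA : SymF E A) (hB : SymF E B)
    (h : sr E A = sr E B) (d : ℕ) (L : List (Fin n)) :
    A d (L.map E.ins) = B d (L.map E.ins) := by
  apply H521.sr_inj <;> assumption

/-! ### the vectors `l_k τ` -/

end Vale.Agent.P269.G1
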