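import Vale.Agent.P269.G1I.H598.Killed
import Vale.Agent.P269.G1I.Poly

/-!
# The polynomial annihilating the Euler field
-/

namespace Vale.Agent.P269.G1

open Finset.HasAntidiagonal (antidiagonal)
open Polynomial

section ops

variable {R A O : Type*} [CommRing R] [Algebra ℚ R] [CommRing A] [Algebra R A]
    [Ring O] [Algebra R O]

namespace Frob

variable (S : Frob R A O)

end Frob

end ops

section alg

variable {R A : Type*} [CommRing R] [Algebra ℚ R] [CommRing A] [Algebra R A]

end alg

section ode

variable {n : ℕ} {K : Type*} [CommRing K] [Algebra ℚ K]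

end ode

section ideal

variable {K : Type*} [Field K] [CharZero K]

/-- **[P5]** if a sequence over `K[[q]]` is killed by `P = x^{m+ν} - c q x^m` and by `P'` then
it vanishes from `m-1` on. -/
theorem killed {m ν : ℕ} (hm : 1 ≤ m) (hν : 1 ≤ ν) (c : K) (hc : c ≠ 0)
    (a : ℕ → PowerSeries K)
    (hP : ∀ j, a (m + ν + j) = PowerSeries.C c * PowerSeries.X * a (m + j))
    (hP' : ∀ j, ((m + ν : ℕ) : PowerSeries K) * a (m + ν - 1 + j) =
      (m : PowerSeries K) * PowerSeries.C c * PowerSeries.X * a (m - 1 + j)) :
    ∀ p, m - 1 ≤ p → a p = 0 := by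
  apply H598.killed <;> assumption

end ideal

end Vale.Agent.P269.G1
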