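import Vale.Agent.P269.G1I.H598.LinMix
import Vale.Agent.P269.G1I.ZSpec

/-!
# [Z] the genus-one Virasoro constraints on the small phase space: definitions and leaves
-/

namespace Vale.Agent.P269.G1

open Finset.HasAntidiagonal (antidiagonal)
open Vale.Agent.P269.CI

variable {X : CompleteIntersection} {F : ℕ → ℕ → List (Ins X) → ℂ}

variable (hF : IsGW X F) (h1 : IsGenusOne F)

/-- **[ZG2]** the linear part and the mixed products -/
theorem lin_mix (K : ℕ) (hK : 1 ≤ K) :
    ∑ k : Fin (X.dim + 1), MvPowerSeries.X k * linS F K 0 k - linS F K 1 0 + mixS F K =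
      - (GG hF h1 ((DD (RR X) (CC hF h1 (Eu hF h1)) (muO hF h1) 1 K 1).1 1) + (1 / 24 : ℂ) •
        strO hF h1 (CC hF h1 ((DD (RR X) (CC hF h1 (Eu hF h1)) (muO hF h1) 1 K 2).1 1))) := by
  apply H598.lin_mix <;> assumption

end Vale.Agent.P269.G1
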