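import Vale.Agent.P269.G1I.H598.Ode
import Vale.Agent.P269.G1I.Poly

/-!
# The polynomial annihilating the Euler field
-/

namespace Vale.Agent.P269.G1

open Finset.HasAntidiagonal (antidiagonal)
open Polynomial

section ops

variable {R A O : Type*} [CommRing R] [Algebra ℚ R] [CommRing A] [Algebra R A]
    [Ring O] [Algebra R O]

namespace Frob

variable (S : Frob R A O)

end Frob

end ops

section alg

variable {R A : Type*} [CommRing R] [Algebra ℚ R] [CommRing A] [Algebra R A]

end alg

section ode

variable {n : ℕ} {K : Type*} [CommRing K] [Algebra ℚ K]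

/-- **[P4]** a first order linear system with zero initial value has only the zero solution. -/
theorem ode_zero {N : ℕ} (a : Fin N → MvPowerSeries (Fin n) K)
    (h0 : ∀ p, MvPowerSeries.constantCoeff (a p) = 0)
    (M : Fin n → Fin N → Fin N → MvPowerSeries (Fin n) K)
    (h : ∀ i p, MvPowerSeries.pderiv K i (a p) = ∑ q, M i p q * a q) : ∀ p, a p = 0 := by
  apply H598.ode_zero <;> assumption

end ode

section ideal

variable {K : Type*} [Field K] [CharZero K]

end ideal

end Vale.Agent.P269.G1
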