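import Vale.Agent.P269.G1I.H598.OmPoly
import Vale.Agent.P269.G1I.Poly

/-!
# The polynomial annihilating the Euler field
-/

namespace Vale.Agent.P269.G1

open Finset.HasAntidiagonal (antidiagonal)
open Polynomial

section ops

variable {R A O : Type*} [CommRing R] [Algebra ℚ R] [CommRing A] [Algebra R A]
    [Ring O] [Algebra R O]

namespace Frob

variable (S : Frob R A O)

/-- **[P1]** -/
theorem om_poly (P : R[X]) (hP : aeval S.E P = 0)
    (hΛ : P.sum (fun n c => c • S.psi n) = 0) (hφ : P.sum (fun n c => c • S.phi n) = 0) (j : ℕ) :
    P.sum (fun n c => c * S.om (n + j)) = 0 := by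
  apply H598.om_poly <;> assumption

end Frob

end ops

section alg

variable {R A : Type*} [CommRing R] [Algebra ℚ R] [CommRing A] [Algebra R A]

end alg

section ode

variable {n : ℕ} {K : Type*} [CommRing K] [Algebra ℚ K]

end ode

section ideal

variable {K : Type*} [Field K] [CharZero K]

end ideal

end Vale.Agent.P269.G1
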