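import Vale.Agent.P269.G1I.H598.Root
import Vale.Agent.P269.G1I.Poly

/-!
# The polynomial annihilating the Euler field
-/

namespace Vale.Agent.P269.G1

open Finset.HasAntidiagonal (antidiagonal)
open Polynomial

section ops

variable {R A O : Type*} [CommRing R] [Algebra ℚ R] [CommRing A] [Algebra R A]
    [Ring O] [Algebra R O]

namespace Frob

variable (S : Frob R A O)

end Frob

end ops

section alg

variable {R A : Type*} [CommRing R] [Algebra ℚ R] [CommRing A] [Algebra R A]

/-- **[P3]** a nilpotent in the direction of a character gives a double root. -/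
theorem double_root {n : ℕ} (hn : 0 < n) (E : A) (b : Module.Basis (Fin n) R A)
    (hb : ∀ i, b i = E ^ (i : ℕ)) (lam : A →ₐ[R] R) (η : A →ₗ[R] A →ₗ[R] R)
    (hη : ∀ x y, η x y = η y x) (hinv : ∀ x y z, η (x * y) z = η x (y * z))
    (hnd : ∀ x, (∀ y, η x y = 0) → x = 0) (s : A) (hs : ∀ x, η s x = lam x) (h0 : lam s = 0)
    (P : R[X]) (hP : P.Monic) (hdeg : P.natDegree = n) (hPE : aeval E P = 0) :
    P.derivative.eval (lam E) = 0 := by
  apply H598.double_root <;> assumption

end alg

section ode

variable {n : ℕ} {K : Type*} [CommRing K] [Algebra ℚ K]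

end ode

section ideal

variable {K : Type*} [Field K] [CharZero K]

end ideal

end Vale.Agent.P269.G1
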