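import Vale.Agent.P269.G1I.H598.Ser
import Vale.Agent.P269.G1I.Ser

/-!
# Formal power series from symmetric functions of lists; algebras from structure constants
-/

namespace Vale.Agent.P269.G1

open Finset.HasAntidiagonal (antidiagonal)
open Vale.Agent.P269.CI

section gen

variable {n : ℕ} {K : Type*} [CommRing K] [Algebra ℚ K]

/-- **[B1a]** -/
theorem pderiv_toSer (A : List (Fin n) → K) (hA : Sym A) (i : Fin n) :
    MvPowerSeries.pderiv K i (toSer A) = toSer (fun L => A (i :: L)) := by
  apply H598.pderiv_toSer <;> assumption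

/-- **[B1b]** -/
theorem toSer_mul (A B : List (Fin n) → K) (hA : Sym A) (hB : Sym B) :
    toSer A * toSer B = toSer (fun L => shf L A B) := by
  apply H598.toSer_mul <;> assumption

/-- **[B1c]** -/
theorem toSer_inj (A B : List (Fin n) → K) (hA : Sym A) (hB : Sym B) (h : toSer A = toSer B) :
    A = B := by
  apply H598.toSer_inj <;> assumption

theorem constantCoeff_toSer (A : List (Fin n) → K) :
    MvPowerSeries.constantCoeff (toSer A) = A [] := by
  apply H598.constantCoeff_toSer <;> assumption

end gen

section ser

variable {X : CompleteIntersection}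

/-- **[B2]** -/
theorem ser_mulS (A B : ℕ → List (Ins X) → ℂ) (hA : SymS A) (hB : SymS B) :
    ser (mulS A B) = ser A * ser B := by
  apply H598.ser_mulS <;> assumption

/-- **[B2']** -/
theorem ser_inj (A B : ℕ → List (Ins X) → ℂ) (hA : SymS A) (hB : SymS B) (h : ser A = ser B)
    (d : ℕ) (L : List (Fin (X.dim + 1))) : A d (L.map (hpow X)) = B d (L.map (hpow X)) := by
  apply H598.ser_inj <;> assumption

/-- **[B2'']** -/
theorem pderiv_ser (A : ℕ → List (Ins X) → ℂ) (hA : SymS A) (i : Fin (X.dim + 1)) :
    MvPowerSeries.pderiv (PowerSeries ℂ) i (ser A) = ser (fun d L => A d (hpow X i :: L)) := by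
  apply H598.pderiv_ser <;> assumption

end ser

section QA

variable {n : ℕ} {R : Type*} [CommRing R]

variable (S : Consts n R)

end QA

end Vale.Agent.P269.G1
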