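import Vale.Agent.P269.G1I.H598.Skew
import Vale.Agent.P269.G1I.Poly

/-!
# The polynomial annihilating the Euler field
-/

namespace Vale.Agent.P269.G1

open Finset.HasAntidiagonal (antidiagonal)
open Polynomial

section ops

variable {R A O : Type*} [CommRing R] [Algebra ℚ R] [CommRing A] [Algebra R A]
    [Ring O] [Algebra R O]

namespace Frob

variable (S : Frob R A O)

end Frob

end ops

section alg

variable {R A : Type*} [CommRing R] [Algebra ℚ R] [CommRing A] [Algebra R A]

/-- **[P2]** the noncommutative difference quotient of an annihilating polynomial at a skew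
operator vanishes if `E` generates. -/
theorem skew_zero (E : A) (hE : ∀ y : A, ∃ f : R[X], y = aeval E f) (mu : A →ₗ[R] A)
    (η : A →ₗ[R] A →ₗ[R] R) (hη : ∀ x y, η x y = η y x) (hinv : ∀ x y z, η (x * y) z = η x (y * z))
    (hnd : ∀ x, (∀ y, η x y = 0) → x = 0) (hmu : ∀ x y, η (mu x) y = - η x (mu y))
    (P : R[X]) (hP : aeval E P = 0) (y : A) :
    P.sum (fun n c => ∑ e ∈ antidiagonal n, if e.1 = 0 then 0 else
      c • (E ^ (e.1 - 1) * mu (E ^ e.2 * y))) = 0 := by
  apply H598.skew_zero <;> assumption

end alg

section ode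

variable {n : ℕ} {K : Type*} [CommRing K] [Algebra ℚ K]

end ode

section ideal

variable {K : Type*} [Field K] [CharZero K]

end ideal

end Vale.Agent.P269.G1
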