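import Vale.Agent.P269.G1I.H598.VirSmall
import Vale.Agent.P269.G1I.Conc

/-!
# Stage 4: the small phase space of a complete intersection, and what is left to prove
-/

namespace Vale.Agent.P269.G1

open Finset.HasAntidiagonal (antidiagonal)
open Vale.Agent.P269.CI
open Polynomial (aeval)

variable {X : CompleteIntersection} {F : ℕ → ℕ → List (Ins X) → ℂ}

variable (hF : IsGW X F) (h1 : IsGenusOne F)

/-- **[Z]** the genus-one Virasoro constraint on the small phase space -/
theorem vir_small (k : ℕ) :
    ser (fun d L => virasoro X F (k + 1) 1 d L) = - (frob hF h1).de (k + 1) := by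
  apply H598.vir_small <;> assumption

end Vale.Agent.P269.G1
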