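import Vale.Agent.P269.G1I.H660.Loop
import Vale.Agent.P269.G1I.ZSpec

/-!
# [Z] the genus-one Virasoro constraints on the small phase space: definitions and leaves
-/

namespace Vale.Agent.P269.G1

open Finset.HasAntidiagonal (antidiagonal)
open Vale.Agent.P269.CI

variable {X : CompleteIntersection} {F : ℕ → ℕ → List (Ins X) → ℂ}

variable (hF : IsGW X F) (h1 : IsGenusOne F)

/-- **[ZF]** the loop term, from `W_euler`, `W_trr` and `conj` at `c = -1` -/
theorem loop_eq (q : ℕ) : ((q : ℕ) : RR X) * loopS F (q + 1) =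
    - ((1 / 2 : ℂ) • strO hF h1 (CC hF h1 (Eu hF h1) *
      DD (RR X) (CC hF h1 (Eu hF h1)) (muO hF h1) (-1) (q + 1) 1)) := by
  apply H660.Lp.loop_eq <;> assumption

end Vale.Agent.P269.G1
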