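import Vale.Agent.P269.G1I.H780.Cyc
import Vale.Agent.P269.G1I.ZAbs

/-!
# [ZA] the abstract recursion for the conjugated Virasoro operators
-/

namespace Vale.Agent.P269.G1

open Finset.HasAntidiagonal (antidiagonal)

section

variable (R : Type*) {O : Type*} [CommRing R] [Algebra ℚ R] [Ring O] [Algebra R O]

/-- **[ZA3]** the cyclic identity behind the loop term -/
theorem loop_cyclic (str : O →ₗ[R] R)
    (hstr : ∀ a b, str (a * b) = str (b * a)) (U mu : O) (q : ℕ) :
    str (U * DD R U mu (-1) (q + 1) 1) = ((q : ℕ) : R) * ((1 / 2 : ℚ) •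
      (∑ e ∈ antidiagonal q, str (mu * U ^ e.1 * mu * U ^ e.2)) -
        ((q + 1 : ℕ) : R) * ((1 / 8 : ℚ) • str (U ^ q))) := by
  apply H780.loop_cyclic <;> assumption

end

end Vale.Agent.P269.G1
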