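import Vale.Agent.P269.G1I.H780.VirBig
import Vale.Agent.P269.G1I.BSpec
import Vale.Agent.P269.G1I.BBig

/-!
# [D] descendants: definitions and leaves
-/

namespace Vale.Agent.P269.G1

open Finset.HasAntidiagonal (antidiagonal)
open Vale.Agent.P269.CI
open Vale.Agent.P269.H597 (coh)

variable {X : CompleteIntersection} {n : ℕ}

variable (E : Fam X n) {F : ℕ → ℕ → List (Ins X) → ℂ}

/-! ### the vectors `l_k τ` -/

/-- **[DC]** the genus-one Virasoro coefficients at a general point; from `vir_act`,
`cor_one_lev`, `cB_zero`, `cB_one` -/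
theorem vir_big (hF : IsGW X F) (h1 : IsGenusOne F) (k : ℕ) :
    sr E (fun d L => virasoro X F (k + 1) 1 d L) = (big E hF h1).zlin (k + 1) +
      cb n (1 / 2) * loopB E F k + (if k = 0 then cb n (coh X).kap else 0) := by
  apply H780.vir_big <;> assumption

end Vale.Agent.P269.G1
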