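import Vale.Agent.P269.G1I.H819.Q45
import Vale.Agent.P269.G1I.Conc

/-!
# Stage 4: the small phase space of a complete intersection, and what is left to prove
-/

namespace Vale.Agent.P269.G1

open Finset.HasAntidiagonal (antidiagonal)
open Vale.Agent.P269.CI
open Polynomial (aeval)

variable {X : CompleteIntersection} {F : ℕ → ℕ → List (Ins X) → ℂ}

variable (hF : IsGW X F) (h1 : IsGenusOne F)

/-- **[Q4]** from `skew_zero` and `double_root` -/
theorem psi_zero (hi : index X ≠ 0) (P : Polynomial (RR X)) (hm : P.Monic)
    (hd : P.natDegree = X.dim + 1) (hP : aeval (Eu hF h1) P = 0) :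
    P.sum (fun n c => c • (frob hF h1).psi n) = 0 := by
  apply H819.psi_zero <;> assumption

/-- **[Q5]** from `skew_zero` -/
theorem phi_zero (hi : index X ≠ 0) (P : Polynomial (RR X)) (hP : aeval (Eu hF h1) P = 0) :
    P.sum (fun n c => c • (frob hF h1).phi n) = 0 := by
  apply H819.phi_zero <;> assumption

end Vale.Agent.P269.G1
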