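import Vale.Agent.P269.G1I.H856.DC2
import Vale.Agent.P269.G1I.BSpec

/-!
# [D] descendants: definitions and leaves
-/

namespace Vale.Agent.P269.G1

open Finset.HasAntidiagonal (antidiagonal)
open Vale.Agent.P269.CI
open Vale.Agent.P269.H597 (coh)

variable {X : CompleteIntersection} {n : ℕ}

variable (E : Fam X n) {F : ℕ → ℕ → List (Ins X) → ℂ}

/-! ### the vectors `l_k τ` -/

/-- **[DC2]** -/
theorem cB_high (h1 : IsGenusOne F) (k N p : ℕ)
    (hN : ∀ i, (E.e i).2 + k + 2 ≤ N) (hN2 : k + 3 ≤ N) (hp : N ≤ p + 1) : cB E h1 N k p = 0 := by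
  apply H856.cB_high <;> assumption

/-- **[DC2]** `𝒜_0` -/
theorem cB_zero (hF : IsGW X F) (h1 : IsGenusOne F) (k N : ℕ)
    (hN : ∀ i, (E.e i).2 + k + 2 ≤ N) (hN2 : k + 3 ≤ N) :
    ∑ p ∈ Finset.range N, actB X n (SB E h1 p) (cB E h1 N k p) =
      - actB X n (UB E h1 ^ (k + 1)) (gB E h1 1) := by
  apply H856.cB_zero <;> assumption

/-- **[DC2]** `𝒜_1` -/
theorem cB_one (hF : IsGW X F) (h1 : IsGenusOne F) (k N : ℕ)
    (hN : ∀ i, (E.e i).2 + k + 2 ≤ N) (hN2 : k + 3 ≤ N) :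
    ∑ p ∈ Finset.range N, actB X n (SB E h1 p) (cB E h1 N k (p + 1)) =
      - ((∑ e ∈ antidiagonal (k + 1), if e.1 = 0 then 0 else
        actB X n (UB E h1 ^ (e.1 - 1) * muc X n (3 / 2) * UB E h1 ^ e.2) (gB E h1 1)) +
        actB X n (UB E h1 ^ (k + 1)) (gB E h1 2)) := by
  apply H856.cB_one <;> assumption

end Vale.Agent.P269.G1
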