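import Vale.Agent.P269.G1I.H901.CorOne
import Vale.Agent.P269.G1I.BSpec

/-!
# [D] descendants: definitions and leaves
-/

namespace Vale.Agent.P269.G1

open Finset.HasAntidiagonal (antidiagonal)
open Vale.Agent.P269.CI
open Vale.Agent.P269.H597 (coh)

variable {X : CompleteIntersection} {n : ℕ}

variable (E : Fam X n) {F : ℕ → ℕ → List (Ins X) → ℂ}

/-- **[DB5]** topological recursion in genus one -/
theorem cor_one_big (hF : IsGW X F) (h1 : IsGenusOne F) (i : Fin n) :
    sr E (cor F 1 [E.ins i]) = GB E F (wB E h1 i 0) +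
      (1 / 24 : ℚ) • strB X n (CB E h1 (wB E h1 i 1)) := by
  apply H901.cor_one_big <;> assumption

/-- **[DB5']** the same for an arbitrary level -/
theorem cor_one_lev (hF : IsGW X F) (h1 : IsGenusOne F) (b : Fin (X.dim + 1)) (m : ℕ) :
    sr E (cor F 1 [(Sum.inl b, m)]) = GB E F (fun c => (SB E h1 m).1 c b) +
      if m = 0 then 0 else (1 / 24 : ℚ) • strB X n (CB E h1 fun c => (SB E h1 (m - 1)).1 c b) := by
  apply H901.cor_one_lev <;> assumption

/-! ### the vectors `l_k τ` -/

end Vale.Agent.P269.G1
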