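import Vale.Agent.P269.G1I.H905.ZB0
import Vale.Agent.P269.G1I.ZSpec

/-!
# [Z] the genus-one Virasoro constraints on the small phase space: definitions and leaves
-/

namespace Vale.Agent.P269.G1

open Finset.HasAntidiagonal (antidiagonal)
open Vale.Agent.P269.CI

variable {X : CompleteIntersection} {F : ℕ → ℕ → List (Ins X) → ℂ}

variable (hF : IsGW X F) (h1 : IsGenusOne F)

/-- **[ZB0]** -/
theorem mu_Rcl : muO hF h1 * Rcl hF h1 = Rcl hF h1 * muO hF h1 + Rcl hF h1 := by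
  apply H905.mu_Rcl <;> assumption

/-- **[ZB0]** -/
theorem ee_zero_zero (m : ℤ) : ee hF h1 m 0 0 = 1 := by
  apply H905.ee_zero_zero <;> assumption

/-- **[ZB0]** -/
theorem ee_zero_succ (m : ℤ) (i : ℕ) : ee hF h1 m 0 (i + 1) = 0 := by
  apply H905.ee_zero_succ <;> assumption

/-- **[ZB0]** -/
theorem ee_succ_zero (m : ℤ) (K : ℕ) : ee hF h1 m (K + 1) 0 =
    (muO hF h1 + kk (RR X) ((m : ℚ) + 1 / 2 + K)) * ee hF h1 m K 0 := by
  apply H905.ee_succ_zero <;> assumption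

/-- **[ZB0]** -/
theorem ee_succ_succ (m : ℤ) (K i : ℕ) : ee hF h1 m (K + 1) (i + 1) = ee hF h1 m K i +
    (muO hF h1 + kk (RR X) ((m : ℚ) + 1 / 2 + K)) * ee hF h1 m K (i + 1) := by
  apply H905.ee_succ_succ <;> assumption

end Vale.Agent.P269.G1
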