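import Vale.Agent.P269.G1I.H920.Closed
import Vale.Agent.P269.G1I.Alg

/-!
# Abstract small phase space with the Euler field: data for the genus-one computation
-/

namespace Vale.Agent.P269.G1

open Finset.HasAntidiagonal (antidiagonal)

namespace Frob

variable {R A O : Type*} [CommRing R] [Algebra ℚ R] [CommRing A] [Algebra R A]
    [Ring O] [Algebra R O] (S : Frob R A O)

/-- **[A-S]** the form `omega` is closed -/
theorem closed (m n : ℕ) :
    S.der (S.E ^ m) (S.om n) - S.der (S.E ^ n) (S.om m) = ((n : R) - m) * S.om (m + n - 1) := by
  apply H920.closed <;> assumption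

end Frob

end Vale.Agent.P269.G1
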