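import Vale.Agent.P269.G1I.H960.Ze
import Vale.Agent.P269.G1I.ZSpec

/-!
# [Z] the genus-one Virasoro constraints on the small phase space: definitions and leaves
-/

namespace Vale.Agent.P269.G1

open Finset.HasAntidiagonal (antidiagonal)
open Vale.Agent.P269.CI

variable {X : CompleteIntersection} {F : ℕ → ℕ → List (Ins X) → ℂ}

variable (hF : IsGW X F) (h1 : IsGenusOne F)

/-- **[ZE1]** -/
theorem linS_eq (K m : ℕ) (a : Fin (X.dim + 1)) : linS F K m a =
    ∑ i ∈ Finset.range (K + 1), Gam hF h1 ((m : ℤ) + K - 1 - i)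
      ((Rcl hF h1 ^ i * ee hF h1 m K i).1 (QA.bas _ a)) := by
  apply H960.linS_eq <;> assumption

/-- **[ZE2]** -/
theorem mixS_eq (K : ℕ) : mixS F K =
    ∑ m ∈ Finset.range (K - 1), (-1) ^ (m + 1) * ∑ i ∈ Finset.range (K + 1),
      Gam hF h1 (-(m : ℤ) - 1 + K - 1 - i)
        ((Rcl hF h1 ^ i * ee hF h1 (-(m : ℤ) - 1) K i * ST hF h1 (m + 2)).1 1) := by
  apply H960.mixS_eq <;> assumption

end Vale.Agent.P269.G1
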