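import Vale.Agent.P269.G1I.H980.SerVir
import Vale.Agent.P269.G1I.ZSpec

/-!
# [Z] the genus-one Virasoro constraints on the small phase space: definitions and leaves
-/

namespace Vale.Agent.P269.G1

open Finset.HasAntidiagonal (antidiagonal)
open Vale.Agent.P269.CI

variable {X : CompleteIntersection} {F : ℕ → ℕ → List (Ins X) → ℂ}

variable (hF : IsGW X F) (h1 : IsGenusOne F)

/-- **[ZD2]** the series of the Virasoro coefficients -/
theorem ser_vir (hF : IsGW X F) (h1 : IsGenusOne F) (K : ℕ) (hK : 1 ≤ K) : ser (fun d L => virasoro X F K 1 d L) =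
    ∑ k : Fin (X.dim + 1), MvPowerSeries.X k * linS F K 0 k - linS F K 1 0 + mixS F K +
      loopS F K + (if K = 1 then cst X (str X (fun _ => 1) / 16 -
        str X (fun a => mu X a ^ 2) / 4) else 0) := by
  apply H980.ser_vir <;> assumption

end Vale.Agent.P269.G1
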