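import Vale.Agent.P269.G1I.H980.VirAct
import Vale.Agent.P269.G1I.BSpec

/-!
# [D] descendants: definitions and leaves
-/

namespace Vale.Agent.P269.G1

open Finset.HasAntidiagonal (antidiagonal)
open Vale.Agent.P269.CI
open Vale.Agent.P269.H597 (coh)

variable {X : CompleteIntersection} {n : ℕ}

variable (E : Fam X n) {F : ℕ → ℕ → List (Ins X) → ℂ}

/-! ### the vectors `l_k τ` -/

/-- **[DC1]** `cB` is `cs` of `H597.State` restricted to the family; `N` large -/
theorem vir_act (hF : IsGW X F) (h1 : IsGenusOne F) (k N : ℕ)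
    (hN : ∀ i, (E.e i).2 + k + 2 ≤ N) (hN2 : k + 3 ≤ N) :
    sr E (fun d L => virasoro X F (k + 1) 1 d L) =
      (∑ p ∈ Finset.range N, ∑ b, cB E h1 N k p b * sr E (cor F 1 [(Sum.inl b, p)])) +
      cb n (1 / 2) * loopB E F k + (if k = 0 then cb n (coh X).kap else 0) := by
  apply H980.vir_act <;> assumption

end Vale.Agent.P269.G1
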