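import Vale.Agent.P269.G1I.H984.DeZero
import Vale.Agent.P269.G1I.Conc

/-!
# Stage 4: the small phase space of a complete intersection, and what is left to prove
-/

namespace Vale.Agent.P269.G1

open Finset.HasAntidiagonal (antidiagonal)
open Vale.Agent.P269.CI
open Polynomial (aeval)

variable {X : CompleteIntersection} {F : ℕ → ℕ → List (Ins X) → ℂ}

variable (hF : IsGW X F) (h1 : IsGenusOne F)

/-- **[F]** -/
theorem de_zero (hX : 3 ≤ X.dim) (hm : 2 ≤ excess X) (hX2 : 2 * excess X ≤ X.dim + 2) (n : ℕ) :
    (frob hF h1).de n = 0 := by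
  apply H984.de_zero <;> assumption

end Vale.Agent.P269.G1
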