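import Vale.Agent.P269.G1I.H984.SBEuler
import Vale.Agent.P269.G1I.BSpec

/-!
# [D] descendants: definitions and leaves
-/

namespace Vale.Agent.P269.G1

open Finset.HasAntidiagonal (antidiagonal)
open Vale.Agent.P269.CI
open Vale.Agent.P269.H597 (coh)

variable {X : CompleteIntersection} {n : ℕ}

variable (E : Fam X n) {F : ℕ → ℕ → List (Ins X) → ℂ}

/-- **[DB4a]** grading and divisor equation -/
theorem SB_euler (hF : IsGW X F) (h1 : IsGenusOne F) (k : ℕ) : CB E h1 (calE E h1) * SB E h1 k =
    ((k : ℚ) + 1) • SB E h1 (k + 1) + SB E h1 (k + 1) * muB X n - muB X n * SB E h1 (k + 1) +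
      SB E h1 k * RBcl X n := by
  apply H984.SB_euler <;> assumption

/-! ### the vectors `l_k τ` -/

end Vale.Agent.P269.G1
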