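import Vale.Agent.P269.G1I.H984.ZA2
import Vale.Agent.P269.G1I.ZAbs

/-!
# [ZA] the abstract recursion for the conjugated Virasoro operators
-/

namespace Vale.Agent.P269.G1

open Finset.HasAntidiagonal (antidiagonal)

section

variable (R : Type*) {O : Type*} [CommRing R] [Algebra ℚ R] [Ring O] [Algebra R O]

/-- **[ZA2]** -/
theorem DD_one_one (U mu : O) (K : ℕ) : DD R U mu 1 K 1 = U ^ K := by
  apply H984.DD_one_one <;> assumption

/-- **[ZA2]** -/
theorem DD_one_two (U mu : O) (K : ℕ) : DD R U mu 1 K 2 =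
    ∑ e ∈ antidiagonal K, if e.1 = 0 then 0 else
      U ^ (e.1 - 1) * (kk R (3 / 2) + mu) * U ^ e.2 := by
  apply H984.DD_one_two <;> assumption

/-- **[ZA2]** -/
theorem DD_neg_one (U mu : O) (K : ℕ) : DD R U mu (-1) K 1 =
    ∑ e ∈ antidiagonal K, if e.1 = 0 then 0 else
      ∑ f ∈ antidiagonal e.2, if f.1 = 0 then 0 else
        U ^ (e.1 - 1) * (kk R (1 / 2) + mu) * U ^ (f.1 - 1) *
          (kk R (-1 / 2) + mu) * U ^ f.2 := by
  apply H984.DD_neg_one <;> assumption

end

end Vale.Agent.P269.G1
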