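import Vale.Agent.P269.G1I.H937.SZEuler
import Vale.Agent.P269.G1I.ZSpec

/-!
# [Z] the genus-one Virasoro constraints on the small phase space: definitions and leaves
-/

namespace Vale.Agent.P269.G1

open Finset.HasAntidiagonal (antidiagonal)
open Vale.Agent.P269.CI

variable {X : CompleteIntersection} {F : ℕ → ℕ → List (Ins X) → ℂ}

variable (hF : IsGW X F) (h1 : IsGenusOne F)

/-- **[ZB4]** from `W_euler` (`n = 0`) and `W_trr` -/
theorem SZ_euler (n : ℤ) : CC hF h1 (Eu hF h1) * SZ hF h1 (n - 1) =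
    kk (RR X) n * SZ hF h1 n + SZ hF h1 n * muO hF h1 -
      muO hF h1 * SZ hF h1 n + SZ hF h1 (n - 1) * Rcl hF h1 := by
  apply H937.SZ_euler <;> assumption

end Vale.Agent.P269.G1
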