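import Vale.Agent.P269.G1I.H660.Closure
import Vale.Agent.P269.G1I.Alg

/-!
# Abstract small phase space with the Euler field: data for the genus-one computation
-/

namespace Vale.Agent.P269.G1

open Finset.HasAntidiagonal (antidiagonal)

namespace Frob

variable {R A O : Type*} [CommRing R] [Algebra ℚ R] [CommRing A] [Algebra R A]
    [Ring O] [Algebra R O] (S : Frob R A O)

/-- **[A-C]** -/
theorem closure (hG : S.Getzler) (h1 : S.de 1 = 0) (hω : ∀ x, S.der x (S.om 1) = 0) (m n : ℕ) :
    S.der (S.E ^ m) (S.der (S.E ^ n) (S.de 2)) = (n : R) * S.der (S.E ^ (m + n - 1)) (S.de 2) := by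
  apply H660.closure <;> assumption

end Frob

end Vale.Agent.P269.G1
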