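import Vale.Agent.P269.G1I.H124.DA
import Vale.Agent.P269.G1I.BAbs

/-!
# [D] descendants: the abstract reduction to level zero
-/

namespace Vale.Agent.P269.G1

open Finset.HasAntidiagonal (antidiagonal)

namespace Big

variable {ι β R O : Type*} [Fintype β] [DecidableEq β] [CommRing R] [Algebra ℚ R]
    [Ring O] [Algebra R O] (S : Big ι β R O)

/-- **[DA]** -/
theorem reduce (K : ℕ) (i : ι) :
    S.D i (S.zlin K) = ∑ b, S.w i 0 b * S.D (S.i0 b) (S.zlin K) := by
  apply H124.reduce <;> assumption

end Big

end Vale.Agent.P269.G1
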